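import Crest.Agent.N255.Fa.Sep

/-!
# Row 233 (helper27): half spaces of a locally convex labelled graph; deep sides and deep quadrants
-/

set_option autoImplicit false

noncomputable section

namespace Crest.Agent.N233.Rg

open N255.Ra N255.Fa N233.Hyp Relation

variable {A P : Type} {Γ : SimpleGraph A} {st : P → A → P → Prop}

section defs
variable (φ : P → W Γ)

/-- the half space of the edge from `x` to `y` that contains `x` -/
def Hs (x y : P) : Set P := {z | dl φ z x < dl φ z y}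

/-- `U` lies in a bounded neighbourhood of `V` -/
def Near (U V : Set P) : Prop := ∃ R, ∀ a ∈ U, ∃ b ∈ V, dl φ a b ≤ R

/-- distance to the hyperplane of `h` -/
def dp (h : Set P) (z : P) : ℕ := ns φ h z + ns φ hᶜ z

variable (st)

/-- half spaces -/
def IsH (h : Set P) : Prop := ∃ x a y, st x a y ∧ h = Hs φ x y

/-- the inner boundary -/
def bd (U : Set P) : Set P := {x | x ∈ U ∧ ∃ a y, st x a y ∧ y ∉ U}

variable (Γ)

/-- vertices of the link of `x` outside the star of `a` -/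
def Out (x : P) (a c : A) : Prop := (∃ y, st x c y) ∧ c ≠ a ∧ ¬Γ.Adj a c

/-- the local conditions on the links -/
structure Loc : Prop where
  b1 : ∀ x a y, st x a y → ∀ c c', Out Γ st x a c → Out Γ st x a c' →
    ReflTransGen (fun u v => Γ.Adj u v ∧ Out Γ st x a v) c c'
  b2 : ∀ x a y b z, st x a y → st x b z → Γ.Adj a b → ∃ c, Out Γ st x a c ∧ Γ.Adj b c
  b3 : ∀ x a y, st x a y → ∀ σ : Set A, Γ.IsClique σ → ∃ c, Out Γ st x a c ∧ c ∉ σ

end defs

variable {φ : P → W Γ} {Q h k U V : Set P} {x y z u v : P} {a b c : A}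

theorem dp_compl (h : Set P) (z : P) : dp φ hᶜ z = dp φ h z := by rw [dp, dp, compl_compl, add_comm]

theorem Near.trans {T : Set P} (h1 : Near φ U V) (h2 : Near φ V T) : Near φ U T := by
  obtain ⟨R, h1⟩ := h1
  obtain ⟨R', h2⟩ := h2
  refine ⟨R + R', fun a ha => ?_⟩
  obtain ⟨b, hb, e⟩ := h1 a ha
  obtain ⟨c, hc, e'⟩ := h2 b hb
  exact ⟨c, hc, (dl_tri _ _ _).trans (add_le_add e e')⟩

theorem Near.of_subset (h1 : U ⊆ V) : Near φ U V := ⟨0, fun a ha => ⟨a, h1 ha, (dl_self a).le⟩⟩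

section lab
variable (H : Lab Γ st φ)
include H

theorem mem_Hs (e : st x a y) : z ∈ Hs φ x y ↔ sd φ (hp φ x a) z = sd φ (hp φ x a) x := by
  have h1 := sd_ne_iff (φ := φ) (x := x) (a := a) (z := z)
  have h2 : dl φ z y = len ((φ z)⁻¹ * φ x * gen Γ a) := by rw [dl, H.map _ _ _ e, mul_assoc]
  change dl φ z x < dl φ z y ↔ _
  rw [h2, dl]
  by_cases m : a ∈ In ((φ z)⁻¹ * φ x)
  · have := len_mem m
    exact ⟨fun _ => by omega, fun e => absurd e.symm (h1.2 m)⟩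
  · have := len_nmem m
    exact ⟨fun _ => by_contra fun n => m (h1.1 (Ne.symm n)), fun _ => by omega⟩

theorem self_mem (e : st x a y) : x ∈ Hs φ x y := (mem_Hs H e).2 rfl

theorem not_mem (e : st x a y) : y ∉ Hs φ x y := fun m => sd_st_ne H e ((mem_Hs H e).1 m).symm

theorem Hs_compl (e : st x a y) : (Hs φ x y)ᶜ = Hs φ y x := by
  ext z
  rw [Set.mem_compl_iff, mem_Hs H e, mem_Hs H (H.symm _ _ _ e), hp_st H e]
  have := sd_st_ne H e
  exact ⟨fun n => ne_trans n this, fun m n => this (n.symm.trans m)⟩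

theorem IsH.compl (hh : IsH st φ h) : IsH st φ hᶜ := by
  obtain ⟨x, a, y, e, rfl⟩ := hh
  exact ⟨y, a, x, H.symm _ _ _ e, Hs_compl H e⟩

theorem IsH.ne (hh : IsH st φ h) : h.Nonempty := by
  obtain ⟨x, a, y, e, rfl⟩ := hh
  exact ⟨x, self_mem H e⟩

theorem IsH.cvx (hh : IsH st φ h) : Cvx φ h := by
  refine ⟨hh.ne H, ?_⟩
  obtain ⟨x, a, y, e, rfl⟩ := hh
  exact fun z hz => ⟨hp φ x a, fun w hw n => hz ((mem_Hs H e).2 (n.trans ((mem_Hs H e).1 hw)))⟩

/-- an edge that leaves a half space defines it -/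
theorem IsH.eq (hh : IsH st φ h) (e : st u b v) (hu : u ∈ h) (hv : v ∉ h) : h = Hs φ u v := by
  obtain ⟨x, a, y, e', rfl⟩ := hh
  rw [mem_Hs H e'] at hu hv
  have r : hp φ x a = hp φ u b := by_contra fun n => hv ((sd_st H e n).trans hu)
  ext z
  rw [mem_Hs H e', mem_Hs H e, ← r, hu]

/-- a step towards `z` -/
theorem exists_step {n : ℕ} (e : dl φ z x = n + 1) : ∃ a y, st x a y ∧ dl φ z y = n ∧ z ∈ Hs φ y x := by
  obtain ⟨a, y, h1, h2⟩ := H.step e
  exact ⟨a, y, h1, h2, by change dl φ z y < dl φ z x; omega⟩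

theorem eq_of_IsH (e : ∀ h, IsH st φ h → z ∈ h → x ∈ h) : z = x := by
  rcases n : dl φ z x with _ | n
  · exact H.eq_of_dl n
  · obtain ⟨a, y, h1, -, h3⟩ := exists_step H n
    exact absurd (e _ ⟨_, _, _, H.symm _ _ _ h1, rfl⟩ h3) (not_mem H (H.symm _ _ _ h1))

theorem dl_le_one (e : ∀ h k, IsH st φ h → IsH st φ k → z ∈ h → x ∉ h → z ∈ k → x ∉ k → h = k) :
    dl φ z x ≤ 1 := by
  rcases n : dl φ z x with _ | _ | n
  · omega
  · omega
  obtain ⟨a, y, h1, h2, h3⟩ := exists_step H n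
  obtain ⟨b, w, k1, -, k3⟩ := exists_step H h2
  have s1 := H.symm _ _ _ h1
  have s2 := H.symm _ _ _ k1
  have i2 : IsH st φ (Hs φ w y) := ⟨_, _, _, s2, rfl⟩
  have := e _ _ ⟨_, _, _, s1, rfl⟩ i2 h3 (not_mem H s1) k3 fun m => by
    rw [i2.eq H h1 m (not_mem H s2), ← Hs_compl H s1] at k3
    exact k3 h3
  exact absurd (this ▸ self_mem H s1) (not_mem H s2)

/-- geodesics cross boundaries -/
theorem exists_bd (hz : z ∈ U) (hx : x ∉ U) : ∃ w ∈ bd st U, dl φ z w + dl φ w x ≤ dl φ z x := by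
  generalize n : dl φ z x = m
  induction m generalizing x with
  | zero => exact absurd (H.eq_of_dl n ▸ hz) hx
  | succ m ih =>
    obtain ⟨a, y, h1, h2⟩ := H.step n
    have s := H.symm _ _ _ h1
    have := H.dl_st s
    by_cases c : y ∈ U
    · exact ⟨y, ⟨c, a, x, s, hx⟩, by omega⟩
    · obtain ⟨w, hw, k⟩ := ih c h2
      have := dl_tri (φ := φ) w y x
      exact ⟨w, hw, by omega⟩

theorem dp_le {w : P} (hw : w ∈ bd st h) (z : P) : dp φ h z ≤ dl φ w z + 1 := by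
  obtain ⟨h1, a, y, h2, h3⟩ := hw
  have e1 := ns_le_dl H h1 z
  have e2 := ns_le_dl H (Q := hᶜ) h3 z
  have e3 := dl_tri (φ := φ) y w z
  have e4 := H.dl_st (H.symm _ _ _ h2)
  unfold dp
  by_cases c : z ∈ h
  · rw [ns_zero c]; omega
  · rw [ns_zero (Q := hᶜ) c]; omega

theorem IsH.exists_bd (hh : IsH st φ h) (z : P) : ∃ w ∈ bd st h, dl φ w z ≤ dp φ h z := by
  unfold dp
  by_cases c : z ∈ h
  · obtain ⟨x, hx, e⟩ := ((hh.compl H).cvx H).exists_dl H z
    obtain ⟨w, hw, k⟩ := Rg.exists_bd H c hx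
    rw [dl_comm z, dl_comm z] at k
    exact ⟨w, hw, by omega⟩
  · obtain ⟨x, hx, e⟩ := (hh.cvx H).exists_dl H z
    obtain ⟨w, hw, k⟩ := Rg.exists_bd H hx c
    exact ⟨w, hw, by omega⟩


theorem dp_le_dl (hx : x ∈ h) (hy : y ∉ h) : dp φ h x ≤ dl φ x y := by
  rw [dp, ns_zero hx, zero_add, dl_comm]
  exact ns_le_dl H (Q := hᶜ) hy x

theorem ns_le_st (hQ : Q.Nonempty) (e : st x a y) (n : hp φ x a ∉ Sep φ Q x) : ns φ Q x ≤ ns φ Q y :=
  Set.ncard_le_ncard (fun _ m => Sep.congr m (sd_st H e fun r => n (r ▸ m))) (sep_finite H hQ y)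

/-- an ascending edge -/
theorem ns_asc (hQ : Q.Nonempty) (e : st x a y) (n : hp φ x a ∉ Sep φ Q x) (v : Vert φ Q (hp φ x a)) :
    ns φ Q y = ns φ Q x + 1 :=
  ns_desc H hQ (H.symm _ _ _ e) (by rw [hp_st H e]; exact v.sep n (sd_st_ne H e))

omit H in
theorem Out.asc (hQ : Q.Nonempty) (ha : hp φ x a ∈ Sep φ Q x) (o : Out Γ st x a c) :
    hp φ x c ∉ Sep φ Q x ∧ Vert φ Q (hp φ x c) :=
  ⟨fun m => o.2.2 (adj_of_desc hQ ha m o.2.1.symm), by_contra fun n => o.2.2 (adj_of_hor ha n)⟩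

theorem exists_desc' (hQ : Q.Nonempty) (e : 1 ≤ ns φ Q x) : ∃ a y, st x a y ∧ hp φ x a ∈ Sep φ Q x :=
  exists_desc H hQ (Set.nonempty_of_ncard_ne_zero (by rw [← ns]; omega))

variable (L : Loc Γ st)
include L

/-- one step deeper -/
theorem deeper {Q' : Set P} (hQ : Q.Nonempty) (hQ' : Q'.Nonempty) (e : 1 ≤ ns φ Q x) :
    ∃ y, ns φ Q y = ns φ Q x + 1 ∧ ns φ Q' x ≤ ns φ Q' y := by
  obtain ⟨a, y, h1, h2⟩ := exists_desc' H hQ e
  obtain ⟨c, o, n⟩ := L.b3 x a y h1 {c | hp φ x c ∈ Sep φ Q' x} fun _ m _ m' => adj_of_desc hQ' m m'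
  obtain ⟨w, hw⟩ := o.1
  exact ⟨w, ns_asc H hQ hw (o.asc hQ h2).1 (o.asc hQ h2).2, ns_le_st H hQ' hw n⟩

/-- **nonempty quadrants are deep** -/
theorem deep (hh : IsH st φ h) (hk : IsH st φ k) (e : (h ∩ k).Nonempty) (R : ℕ) :
    ∃ z ∈ h ∩ k, R ≤ dp φ h z ∧ R ≤ dp φ k z := by
  have c1 := (hh.compl H).cvx H
  have c2 := (hk.compl H).cvx H
  have : ∃ z, R + 1 ≤ ns φ hᶜ z ∧ R + 1 ≤ ns φ kᶜ z := by
    induction R with
    | zero =>
      obtain ⟨z, h1, h2⟩ := e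
      exact ⟨z, Nat.pos_of_ne_zero fun n => c1.mem_of_ns H n h1,
        Nat.pos_of_ne_zero fun n => c2.mem_of_ns H n h2⟩
    | succ R ih =>
      obtain ⟨z, h1, h2⟩ := ih
      obtain ⟨y, k1, k2⟩ := deeper H L c1.ne c2.ne (x := z) (by omega)
      obtain ⟨w, l1, l2⟩ := deeper H L c2.ne c1.ne (x := y) (by omega)
      exact ⟨w, by omega, by omega⟩
  obtain ⟨z, h1, h2⟩ := this
  refine ⟨z, ⟨by_contra fun n => ?_, by_contra fun n => ?_⟩, by unfold dp; omega, by unfold dp; omega⟩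
  · rw [ns_zero (Q := hᶜ) n] at h1; omega
  · rw [ns_zero (Q := kᶜ) n] at h2; omega

omit H L in
variable (st φ) in
/-- edges above level `m` -/
def Ab (Q : Set P) (m : ℕ) (u v : P) : Prop := (∃ a, st u a v) ∧ m ≤ ns φ Q u ∧ m ≤ ns φ Q v

omit L in
theorem Ab.rsymm {m : ℕ} (p : ReflTransGen (Ab st φ Q m) u v) : ReflTransGen (Ab st φ Q m) v u := by
  induction p with
  | refl => exact .refl
  | tail _ j ih => exact ih.head ⟨j.1.imp fun _ e => H.symm _ _ _ e, j.2.2, j.2.1⟩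

omit L in
theorem sq_up (hQ : Q.Nonempty) (e : st x b y) (e' : st x c z) (j : Γ.Adj b c)
    (nc : hp φ x c ∉ Sep φ Q x) {m : ℕ} (hy : m ≤ ns φ Q y)
    (hz : m ≤ ns φ Q z) : ReflTransGen (Ab st φ Q m) y z := by
  obtain ⟨u, u1, u2⟩ := H.dia _ _ _ _ _ j e e'
  have := ns_le_st H hQ u1 (by
    rw [hp_adj H e j]
    exact fun m => nc (Sep.congr m (sd_st H e fun r => j.ne (hw_inj r).symm).symm))
  exact (ReflTransGen.single ⟨⟨_, u1⟩, hy, by omega⟩).tail ⟨⟨_, H.symm _ _ _ u2⟩, by omega, hz⟩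

/-- the ascending link is connected -/
theorem up_conn (hQ : Q.Nonempty) (p : 1 ≤ ns φ Q x) (e : st x b y) (e' : st x c z)
    (hy : ns φ Q x + 1 ≤ ns φ Q y) (hz : ns φ Q x + 1 ≤ ns φ Q z) :
    ReflTransGen (Ab st φ Q (ns φ Q x + 1)) y z := by
  obtain ⟨a, w, h1, h2⟩ := exists_desc' H hQ p
  have key : ∀ b y, st x b y → ns φ Q x + 1 ≤ ns φ Q y → ∃ c z, Out Γ st x a c ∧ st x c z ∧
      ReflTransGen (Ab st φ Q (ns φ Q x + 1)) y z := fun b y e hy => by
    have nb : hp φ x b ∉ Sep φ Q x := fun m => by have := ns_desc H hQ e m; omega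
    by_cases j : Γ.Adj a b
    · obtain ⟨c, o, j'⟩ := L.b2 _ _ _ _ _ h1 e j
      obtain ⟨z, hz⟩ := o.1
      exact ⟨c, z, o, hz, sq_up H hQ e hz j' (o.asc hQ h2).1 hy
        (ns_asc H hQ hz (o.asc hQ h2).1 (o.asc hQ h2).2).ge⟩
    · exact ⟨b, y, ⟨⟨y, e⟩, fun r => nb (r ▸ h2), j⟩, e, .refl⟩
  obtain ⟨b', y', o1, e1, p1⟩ := key b y e hy
  obtain ⟨c', z', o2, e2, p2⟩ := key c z e' hz
  refine p1.trans (ReflTransGen.trans ?_ (Ab.rsymm H p2))
  have q := L.b1 _ _ _ h1 _ _ o1 o2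
  clear p2
  induction q generalizing z' with
  | refl => rw [H.det _ _ _ _ e1 e2]
  | @tail d d' q j ih =>
    have o : Out Γ st x a d := by
      cases q with
      | refl => exact o1
      | tail _ j => exact j.2
    obtain ⟨t, ht⟩ := o.1
    exact (ih t o ht).trans (sq_up H hQ ht e2 j.1 (o2.asc hQ h2).1
      (ns_asc H hQ ht (o.asc hQ h2).1 (o.asc hQ h2).2).ge
      (ns_asc H hQ e2 (o2.asc hQ h2).1 (o2.asc hQ h2).2).ge)

theorem hor_up (hQ : Q.Nonempty) (p : 1 ≤ ns φ Q x) (e : st x b y) (hy : ns φ Q y = ns φ Q x) :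
    ∃ c u v, st x c u ∧ st y c v ∧ Ab st φ Q (ns φ Q x + 1) u v := by
  obtain ⟨a, w, h1, h2⟩ := exists_desc' H hQ p
  have nb : hp φ x b ∉ Sep φ Q x := fun m => by have := ns_desc H hQ e m; omega
  have nv : ¬Vert φ Q (hp φ x b) := fun v => by have := ns_asc H hQ e nb v; omega
  obtain ⟨c, o, j⟩ := L.b2 _ _ _ _ _ h1 e (adj_of_hor h2 nv)
  obtain ⟨u, hu⟩ := o.1
  obtain ⟨v, v1, v2⟩ := H.dia _ _ _ _ _ j e hu
  have l := ns_asc H hQ hu (o.asc hQ h2).1 (o.asc hQ h2).2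
  refine ⟨c, u, v, hu, v1, ⟨b, v2⟩, l.ge, ?_⟩
  rw [← l, ns, ns, sep_hor H v2 (by rwa [hp_adj H hu j.symm])]

/-- **the deep part of a half space is connected** -/
theorem conn_ab (hh : IsH st φ h) (m : ℕ) : ∀ x y, m + 1 ≤ ns φ h x → m + 1 ≤ ns φ h y →
    ReflTransGen (Ab st φ h (m + 1)) x y := by
  have hQ := hh.ne H
  induction m with
  | zero =>
    have pos : ∀ x, x ∉ h → 0 + 1 ≤ ns φ h x := fun x hx =>
      Nat.pos_of_ne_zero fun n => hx ((hh.cvx H).mem_of_ns H n)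
    have neg : ∀ x, 0 + 1 ≤ ns φ h x → x ∉ h := fun x hx m => by rw [ns_zero m] at hx; omega
    intro x y hx hy
    generalize n : dl φ x y = d
    induction d generalizing y with
    | zero => rw [H.eq_of_dl n]
    | succ d ih =>
      obtain ⟨a, w, h1, h2, h3⟩ := exists_step H n
      have hw : w ∉ h := fun m => neg x hx (by rwa [hh.eq H (H.symm _ _ _ h1) m (neg y hy)])
      exact (ih w (pos w hw) h2).tail ⟨⟨a, H.symm _ _ _ h1⟩, pos w hw, hy⟩
  | succ m ih =>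
    intro x y hx hy
    have key : ∀ y, ReflTransGen (Ab st φ h (m + 1)) x y →
        (m + 1 + 1 ≤ ns φ h y → ReflTransGen (Ab st φ h (m + 1 + 1)) x y) ∧
        (ns φ h y = m + 1 → ∀ b w, st y b w → m + 1 + 1 ≤ ns φ h w →
          ReflTransGen (Ab st φ h (m + 1 + 1)) x w) := fun y p => by
      induction p with
      | refl => exact ⟨fun _ => .refl, fun e => by omega⟩
      | @tail u v _ j ih =>
        obtain ⟨⟨a, e⟩, hu, hv⟩ := j
        rcases hu.lt_or_eq with hu | hu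
        · refine ⟨fun hv => (ih.1 hu).tail ⟨⟨a, e⟩, hu, hv⟩, fun hv b w e' hw => ?_⟩
          exact (ih.1 hu).trans (hv ▸ up_conn H L hQ (by omega) (H.symm _ _ _ e) e' (by omega) (by omega))
        · refine ⟨fun hv => ih.2 hu.symm a v e hv, fun hv b w e' hw => ?_⟩
          obtain ⟨c, s, t, k1, k2, k3⟩ := hor_up H L hQ (x := u) (by omega) e (by omega)
          rw [← hu] at k3
          exact ((ih.2 hu.symm c s k1 k3.2.1).tail k3).trans
            (hv ▸ up_conn H L hQ (by omega) k2 e' (by have := k3.2.2; omega) (by omega))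
    exact (key y (ih x y (by omega) (by omega))).1 hy

end lab

end Crest.Agent.N233.Rg

end
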